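import Vale.Agent.P101.Defs

open Filter Topology

namespace Vale.Agent.Results.P101.MinimalProjection

open Vale.Agent.P101

theorem exists_tendsto_of_bounded (ω : Ultrafilter ℕ) (u : ℕ → ℂ) (M : ℝ)
    (h : ∀ n, ‖u n‖ ≤ M) : ∃ z, Tendsto u ω (𝓝 z) := by
  have hc : IsCompact (Metric.closedBall (0 : ℂ) M) := isCompact_closedBall 0 M
  obtain ⟨z, -, hz⟩ := hc.ultrafilter_le_nhds (ω.map u) (by
    simp only [le_principal_iff]
    refine Filter.mem_map.2 (Filter.univ_mem' fun n => ?_)
    simpa using h n)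
  exact ⟨z, hz⟩

theorem result (A : Type*) [CStarAlgebra A] [Nontrivial A] (B : Type*) [NonUnitalCStarAlgebra B]
    (ω : Ultrafilter ℕ) (π : A →⋆ₙₐ[ℂ] B) (e : A)
    (hp : IsStarProjection (π e)) (hp0 : π e ≠ 0)
    (hmin : ∀ a : A, ∃ c : ℂ, π e * π a * π e = c • π e) :
    HasCharacter A ω := by
  classical
  choose φ hφ using hmin
  set p := π e with hpdef
  have hpp : p * p = p := hp.isIdempotentElem
  have hps : star p = p := hp.isSelfAdjoint
  have hpn : 0 < ‖p‖ := norm_pos_iff.2 hp0
  have hp1 : ‖p‖ ≤ 1 := IsStarProjection.norm_le p hp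
  have huniq : ∀ c d : ℂ, c • p = d • p → c = d := by
    intro c d h
    have h2 : (c - d) • p = 0 := by rw [sub_smul, h, sub_self]
    rcases smul_eq_zero.1 h2 with h3 | h3
    · exact sub_eq_zero.1 h3
    · exact absurd h3 hp0
  have hnormle : ∀ x : B, ∀ c : ℂ, p * x * p = c • p → ‖c‖ ≤ ‖x‖ := by
    intro x c h
    have h1 : ‖c‖ * ‖p‖ ≤ ‖x‖ * ‖p‖ := by
      calc ‖c‖ * ‖p‖ = ‖c • p‖ := (norm_smul _ _).symm
        _ = ‖p * x * p‖ := by rw [h]
        _ ≤ ‖p * x‖ * ‖p‖ := norm_mul_le _ _
        _ ≤ (‖p‖ * ‖x‖) * ‖p‖ := mul_le_mul_of_nonneg_right (norm_mul_le _ _) (norm_nonneg _)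
        _ ≤ (1 * ‖x‖) * ‖p‖ := by gcongr
        _ = ‖x‖ * ‖p‖ := by rw [one_mul]
    exact le_of_mul_le_mul_right h1 hpn
  have hπle : ∀ a : A, ‖π a‖ ≤ ‖a‖ := fun a => NonUnitalStarAlgHom.norm_apply_le π a
  have hφle : ∀ a : A, ‖φ a‖ ≤ ‖a‖ := fun a => (hnormle _ _ (hφ a)).trans (hπle a)
  have hφadd : ∀ a b : A, φ (a + b) = φ a + φ b := by
    intro a b
    apply huniq
    rw [← hφ, map_add, mul_add, add_mul, hφ, hφ, add_smul]
  have hφsmul : ∀ (c : ℂ) (a : A), φ (c • a) = c * φ a := by
    intro c a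
    apply huniq
    rw [← hφ, map_smul, mul_smul_comm, smul_mul_assoc, hφ, smul_smul]
  have hφstar : ∀ a : A, φ (star a) = star (φ a) := by
    intro a
    apply huniq
    have h1 : star (p * π a * p) = p * π (star a) * p := by
      rw [star_mul, star_mul, hps, map_star, mul_assoc]
    rw [← hφ, ← h1, hφ, star_smul, hps]
  have hφone : φ 1 = 1 := by
    apply huniq
    have h1 : π 1 * p = p := by rw [hpdef, ← map_mul, one_mul]
    rw [← hφ, mul_assoc, h1, hpp, one_smul]
  have hlim : ∀ a : Linf A, ∃ z, Tendsto (fun n => φ (a n)) ω (𝓝 z) := by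
    intro a
    exact exists_tendsto_of_bounded ω _ ‖a‖
      (fun n => (hφle _).trans (lp.norm_apply_le_norm (by simp) a n))
  choose L hL using hlim
  have hLuniq : ∀ (a : Linf A) (z : ℂ), Tendsto (fun n => φ (a n)) ω (𝓝 z) → L a = z :=
    fun a z hz => tendsto_nhds_unique (hL a) hz
  have hLadd : ∀ a b : Linf A, L (a + b) = L a + L b := by
    intro a b
    apply hLuniq
    have := (hL a).add (hL b)
    refine this.congr (fun n => ?_)
    simp [hφadd]
  have hLsmul : ∀ (c : ℂ) (a : Linf A), L (c • a) = c * L a := by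
    intro c a
    apply hLuniq
    have := (hL a).const_mul c
    refine this.congr (fun n => ?_)
    simp [hφsmul]
  have hLstar : ∀ a : Linf A, L (star a) = star (L a) := by
    intro a
    apply hLuniq
    have := (continuous_star.tendsto (L a)).comp (hL a)
    refine this.congr (fun n => ?_)
    simp [hφstar]
  have hLone : L 1 = 1 := by
    apply hLuniq
    have : (fun n => φ ((1 : Linf A) n)) = fun _ => (1 : ℂ) := by
      funext n
      simp [hφone]
    rw [this]
    exact tendsto_const_nhds
  have hLnull : ∀ a : Linf A, a ∈ nullIdeal A ω → L a = 0 := by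
    intro a ha
    apply hLuniq
    exact squeeze_zero_norm (fun n => hφle _) ((mem_nullIdeal A).1 ha)
  have hLneg : ∀ a : Linf A, L (-a) = - L a := by
    intro a
    have := hLsmul (-1) a
    simpa using this
  have hLwd : ∀ a b : Linf A, mkU ω a = mkU ω b → L a = L b := by
    intro a b h
    have h1 : a - b ∈ nullIdeal A ω := Ideal.Quotient.eq.1 h
    have h2 := hLnull _ h1
    rw [sub_eq_add_neg, hLadd, hLneg] at h2
    exact (sub_eq_zero.1 (by rw [sub_eq_add_neg]; exact h2))
  have hLmul : ∀ a b : Linf A, mkU ω b ∈ centralSeqAlg A ω → L (a * b) = L a * L b := by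
    intro a b hb
    have hcomm : mkU ω (constSeq A e) * mkU ω b = mkU ω b * mkU ω (constSeq A e) := by
      have := (StarSubalgebra.mem_centralizer_iff ℂ).1 hb (mkU ω (constSeq A e)) ⟨e, rfl⟩
      exact this.1
    have hnull : b * constSeq A e - constSeq A e * b ∈ nullIdeal A ω := by
      apply Ideal.Quotient.eq.1
      rw [map_mul, map_mul, hcomm]
    have hnull' := (mem_nullIdeal A).1 hnull
    have hbound : ∀ n, ‖φ ((a * b) n) - φ (a n) * φ (b n)‖
        ≤ ‖a‖ * ‖(b * constSeq A e - constSeq A e * b) n‖ := by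
      intro n
      have h1 : (a * b) n = a n * b n := by simp
      have h2 : (b * constSeq A e - constSeq A e * b) n = b n * e - e * b n := by
        rfl
      rw [h1, h2]
      have h3 : p * (π (a n) * π (b n * e - e * b n)) * p
          = (φ (a n * b n) - φ (a n) * φ (b n)) • p := by
        have e1 : π (b n * e - e * b n) = π (b n) * p - p * π (b n) := by
          rw [map_sub, map_mul, map_mul]
        have e2 : p * (π (a n) * (π (b n) * p)) * p = φ (a n * b n) • p := by
          rw [← hφ, map_mul]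
          simp only [mul_assoc, hpp]
        have e3 : p * (π (a n) * (p * π (b n))) * p = (φ (a n) * φ (b n)) • p := by
          have : p * (π (a n) * (p * π (b n))) * p = (p * π (a n) * p) * (p * π (b n) * p) := by
            simp only [mul_assoc]
            rw [← mul_assoc p p, hpp]
          rw [this, hφ, hφ, smul_mul_smul_comm, hpp]
        rw [e1, mul_sub, mul_sub, sub_mul, e2, e3, sub_smul]
      have h4 := hnormle _ _ h3
      refine h4.trans ?_
      calc ‖π (a n) * π (b n * e - e * b n)‖ ≤ ‖π (a n)‖ * ‖π (b n * e - e * b n)‖ :=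
            norm_mul_le _ _
        _ ≤ ‖a‖ * ‖b n * e - e * b n‖ := by
            apply mul_le_mul ((hπle _).trans (lp.norm_apply_le_norm (by simp) a n)) (hπle _)
              (norm_nonneg _) (norm_nonneg _)
    have hdiff : Tendsto (fun n => φ ((a * b) n) - φ (a n) * φ (b n)) ω (𝓝 0) := by
      have h5 := hnull'.const_mul ‖a‖
      rw [mul_zero] at h5
      exact squeeze_zero_norm hbound h5
    apply hLuniq
    have h6 := hdiff.add ((hL a).mul (hL b))
    rw [zero_add] at h6
    refine h6.congr (fun n => ?_)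
    ring
  have hsurj : ∀ x : Ultrapower A ω, ∃ a : Linf A, mkU ω a = x := Ideal.Quotient.mk_surjective
  choose rep hrep using hsurj
  have hχ : ∀ (x : Ultrapower A ω) (a : Linf A), mkU ω a = x → L (rep x) = L a := by
    intro x a h
    exact hLwd _ _ ((hrep x).trans h.symm)
  refine ⟨{ toFun := fun x => L (rep x.1), map_one' := ?_, map_mul' := ?_, map_zero' := ?_,
            map_add' := ?_, commutes' := ?_, map_star' := ?_ }⟩
  · have h1 : mkU ω (1 : Linf A) = (1 : centralSeqAlg A ω).1 := map_one _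
    rw [hχ _ _ h1]
    exact hLone
  · intro x y
    have h1 : mkU ω (rep x.1 * rep y.1) = (x * y).1 := by
      rw [map_mul, hrep, hrep]; rfl
    rw [hχ _ _ h1]
    apply hLmul
    rw [hrep]
    exact y.2
  · have h1 : mkU ω (0 : Linf A) = (0 : centralSeqAlg A ω).1 := map_zero _
    rw [hχ _ _ h1]
    exact hLnull 0 (Ideal.zero_mem _)
  · intro x y
    have h1 : mkU ω (rep x.1 + rep y.1) = (x + y).1 := by
      rw [map_add, hrep, hrep]; rfl
    rw [hχ _ _ h1]
    exact hLadd _ _
  · intro c
    have h1 : mkU ω (c • (1 : Linf A)) = (algebraMap ℂ (centralSeqAlg A ω) c).1 := by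
      rw [← smul_mkU, map_one, Algebra.algebraMap_eq_smul_one]; rfl
    show L (rep (algebraMap ℂ (centralSeqAlg A ω) c).1) = _
    rw [hχ _ _ h1, hLsmul, hLone]
    simp
  · intro x
    have h1 : mkU ω (star (rep x.1)) = (star x).1 := by
      rw [← star_mkU, hrep]; rfl
    show L (rep (star x).1) = _
    rw [hχ _ _ h1]
    exact hLstar _

end Vale.Agent.Results.P101.MinimalProjection
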